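import Vale.Agent.P283R.Tp.Hrt

/-!
# P283R: passing to a localisation of the ring and to a subgroup
-/

set_option linter.all false

open Set

noncomputable section

namespace Vale.Agent.P283R.Uc

open Vale.Agent.P287D Vale.Agent.P297Z

variable {F : Type} [Field F] [Algebra ℂ F] {N : ℕ} {S T : Subalgebra ℂ F} {p : Ideal S}
  {q : Ideal T} {G H A : Subgroup (F ≃ₐ[ℂ] F)}

/-- `S ≤ T` have the same local ring at `p` and `q` -/
structure Lz (S T : Subalgebra ℂ F) (p : Ideal S) (q : Ideal T) : Prop where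
  le : S ≤ T
  pri : q.IsPrime
  com : ∀ (a : S) (b : T), (a : F) = b → (a ∈ p ↔ b ∈ q)
  lo : ∀ a ∈ T, a ∈ Lo S p

namespace Lz

theorem eq_comap (h : Lz S T p q) : p = q.comap (Subalgebra.inclusion h.le) :=
  Ideal.ext fun a => h.com a ⟨a, h.le a.2⟩ rfl

theorem prime (h : Lz S T p q) : p.IsPrime := by
  have := h.pri
  rw [h.eq_comap]
  exact Ideal.comap_isPrime _ _

/-- membership of a fraction -/
theorem frac (h : Lz S T p q) {b : T} {s t : S} (ht : t ∉ p) (e : (b : F) = s / t) :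
    b ∈ q ↔ s ∈ p := by
  have t0 := Hr.ne_of_notMem ht
  have e1 : (s : F) = (b * ⟨t, h.le t.2⟩ : T) := by
    change (s : F) = b * t
    rw [e, div_mul_cancel₀ _ t0]
  rw [h.com s _ e1, h.pri.mul_mem_iff_mem_or_mem, ← h.com t ⟨t, h.le t.2⟩ rfl, or_iff_left ht]

theorem lo_eq (h : Lz S T p q) : Lo T q = Lo S p := by
  ext a
  constructor
  · rintro ⟨b, c, hc, rfl⟩
    obtain ⟨s, t, ht, e⟩ := h.lo b b.2
    obtain ⟨s', t', ht', e'⟩ := h.lo c c.2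
    have hs' : s' ∉ p := fun k => hc ((h.frac ht' e').2 k)
    refine ⟨s * t', t * s', fun k => (h.prime.mem_or_mem k).elim ht hs', ?_⟩
    have := Hr.ne_of_notMem ht
    have := Hr.ne_of_notMem ht'
    have := Hr.ne_of_notMem hs'
    rw [e, e', MulMemClass.coe_mul, MulMemClass.coe_mul]
    field_simp
  · rintro ⟨s, t, ht, rfl⟩
    exact ⟨⟨s, h.le s.2⟩, ⟨t, h.le t.2⟩, fun k => ht ((h.com t _ rfl).2 k), rfl⟩

theorem cen (h : Lz S T p q) (P : Pl F) : Cen T q P ↔ Cen S p P := by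
  refine ⟨fun k a => ⟨(k ⟨a, h.le a.2⟩).1, (h.com a ⟨a, h.le a.2⟩ rfl).trans (k _).2⟩,
    fun k b => ?_⟩
  have m := Hr.cen_lo k (h.lo b b.2)
  refine ⟨m, ?_⟩
  obtain ⟨s, t, ht, e⟩ := h.lo b b.2
  have t0 := Hr.ne_of_notMem ht
  rw [h.frac ht e, Hr.cen_iff k, Bm.rd_zero_iff P m, e]
  by_cases s0 : (s : F) = 0
  · simp [s0]
  · rw [or_iff_right s0, or_iff_right (div_ne_zero s0 t0), div_eq_mul_inv,
      Pl.ord_mul _ s0 (inv_ne_zero t0), Pl.ord_inv, Hr.cen_ord k ht, neg_zero, add_zero]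

theorem down (h : Lz S T p q) {q' : Ideal T} (hq : q'.IsPrime) (e : q' ≤ q) :
    ∃ p' ≤ p, Lz S T p' q' := by
  have le : q'.comap (Subalgebra.inclusion h.le) ≤ p := fun a k =>
    (h.com a ⟨a, h.le a.2⟩ rfl).2 (e k)
  refine ⟨_, le, h.le, hq, fun a b k => ?_, fun a ha => ?_⟩
  · rw [Ideal.mem_comap, show Subalgebra.inclusion h.le a = b from Subtype.ext k]
  · obtain ⟨s, t, ht, k⟩ := h.lo a ha
    exact ⟨s, t, fun m => ht (le m), k⟩

end Lz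

theorem lo_mono {p' : Ideal S} (e : p' ≤ p) : Lo S p ⊆ Lo S p' :=
  fun _ ⟨s, t, ht, k⟩ => ⟨s, t, fun m => ht (e m), k⟩

/-- the extension of a prime ideal -/
def ex (hp : p.IsPrime) (hT : ∀ a ∈ T, a ∈ Lo S p) : Ideal T where
  carrier := {b | ∃ s ∈ p, ∃ t ∉ p, (b : F) * t = (s : S)}
  add_mem' := by
    rintro a b ⟨s, hs, t, ht, e⟩ ⟨s', hs', t', ht', e'⟩
    refine ⟨s * t' + s' * t, add_mem (p.mul_mem_right _ hs) (p.mul_mem_right _ hs'), t * t',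
      fun k => (hp.mem_or_mem k).elim ht ht', ?_⟩
    push_cast
    rw [← e, ← e']
    ring
  zero_mem' := ⟨0, zero_mem _, 1, (Ideal.ne_top_iff_one p).1 hp.ne_top, by simp⟩
  smul_mem' := by
    rintro c b ⟨s, hs, t, ht, e⟩
    obtain ⟨s', t', ht', e'⟩ := hT c c.2
    refine ⟨s' * s, p.mul_mem_left _ hs, t' * t, fun k => (hp.mem_or_mem k).elim ht' ht, ?_⟩
    have := Hr.ne_of_notMem ht'
    rw [smul_eq_mul]
    push_cast
    rw [← e, e']
    field_simp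

theorem mem_ex (hp : p.IsPrime) (hT : ∀ a ∈ T, a ∈ Lo S p) {b : T} {s t : S} (ht : t ∉ p)
    (e : (b : F) = s / t) : b ∈ ex hp hT ↔ s ∈ p := by
  have t0 := Hr.ne_of_notMem ht
  refine ⟨?_, fun k => ⟨s, k, t, ht, by rw [e, div_mul_cancel₀ _ t0]⟩⟩
  rintro ⟨s', hs', t', ht', e'⟩
  have : s * t' = s' * t := Subtype.ext (by
    push_cast
    rw [← e', e]
    field_simp)
  exact (hp.mem_or_mem (this ▸ p.mul_mem_right t hs')).resolve_right ht'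

theorem lz_ex (le : S ≤ T) (hp : p.IsPrime) (hT : ∀ a ∈ T, a ∈ Lo S p) : Lz S T p (ex hp hT) := by
  have h1 : (1 : S) ∉ p := (Ideal.ne_top_iff_one p).1 hp.ne_top
  refine ⟨le, ⟨(Ideal.ne_top_iff_one _).2 fun k => h1 ((mem_ex hp hT h1 (by simp)).1 k),
    fun {a b} k => ?_⟩, fun a b k => (mem_ex hp hT h1 (by simp [k])).symm, hT⟩
  obtain ⟨s, t, ht, e⟩ := hT a a.2
  obtain ⟨s', t', ht', e'⟩ := hT b b.2
  rw [mem_ex hp hT ht e, mem_ex hp hT ht' e']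
  refine hp.mem_or_mem ((mem_ex hp hT (t := t * t')
    (fun m => (hp.mem_or_mem m).elim ht ht') ?_).1 k)
  push_cast
  rw [e, e', div_mul_div_comm]

namespace Lz

theorem up (h : Lz S T p q) {p' : Ideal S} (hp : p'.IsPrime) (e : p' ≤ p) :
    ∃ q' ≤ q, Lz S T p' q' := by
  have hT : ∀ a ∈ T, a ∈ Lo S p' := fun a ha => lo_mono e (h.lo a ha)
  refine ⟨_, fun b k => ?_, lz_ex h.le hp hT⟩
  obtain ⟨s, t, ht, e'⟩ := h.lo b b.2
  exact (h.frac ht e').2 (e ((mem_ex hp hT (fun m => ht (e m)) e').1 k))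

theorem pdat (h : Lz S T p q) (R : Pl F) : PDat T q R ↔ PDat S p R := by
  constructor
  · rintro ⟨q', e, c, l⟩
    obtain ⟨p', e', k⟩ := h.down (Hr.cen_prime c) e
    exact ⟨p', e', (k.cen R).1 c, k.lo_eq ▸ l⟩
  · rintro ⟨p', e, c, l⟩
    obtain ⟨q', e', k⟩ := h.up (Hr.cen_prime c) e
    exact ⟨q', e', (k.cen R).2 c, k.lo_eq ▸ l⟩

variable {y : Fin N → F} {m n Q J : ℕ} {g b : F} {ε : ℝ}

theorem eqn (h : Lz S T p q) : Eqn Q T q y m g b ↔ Eqn Q S p y m g b := by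
  simp only [Eqn, h.lo_eq, h.pdat]

theorem hyp (h : Lz S T p q) (e : H ≤ G) (k : Hyp ε G S p y m g) : Hyp ε H T q y m g :=
  fun P hP r hr d => k P ((h.cen P).1 hP) r hr fun a a0 f => d a a0 fun σ hσ => f σ (e hσ)

/-- the hypothesis at all smaller primes -/
theorem hyps (h : Lz S T p q) (e : H ≤ G) (k : ∀ p' : Ideal S, p' ≤ p → Hyp ε G S p' y m g)
    (q' : Ideal T) (l : q' ≤ q) : Hyp ε H T q' y m g := fun P hP => by
  obtain ⟨p', e', k'⟩ := h.down (Hr.cen_prime hP) l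
  exact k'.hyp e (k p' e') P hP

theorem sol (h : Lz S T p q) : Sol n A T q (PDat T q) y m g ↔ Sol n A S p (PDat S p) y m g := by
  simp only [Sol, h.cen, h.pdat]

theorem inr_down (h : Lz S T p q) {σ : F ≃ₐ[ℂ] F} (hs : ∀ a ∈ S, σ a ∈ S) (k : Inr T q σ) :
    Inr S p σ := fun a => by
  obtain ⟨b, hb, e⟩ := k ⟨a, h.le a.2⟩
  exact ⟨⟨_, sub_mem (hs a a.2) a.2⟩, (h.com _ b e).2 hb, rfl⟩

theorem inr_up (h : Lz S T p q) {σ : F ≃ₐ[ℂ] F} (hs : ∀ a ∈ T, σ a ∈ T) (k : Inr S p σ) :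
    Inr T q σ := fun a => by
  obtain ⟨s, t, ht, e⟩ := h.lo a a.2
  obtain ⟨u, hu, eu⟩ := k s
  obtain ⟨v, hv, ev⟩ := k t
  have n : t + v ∉ p := fun m => ht (by simpa using p.sub_mem m hv)
  have t0 := Hr.ne_of_notMem ht
  have n0 : (t : F) + v ≠ 0 := Hr.ne_of_notMem n
  refine ⟨⟨_, sub_mem (hs a a.2) a.2⟩, (h.frac (s := u * t - s * v) (t := (t + v) * t)
    (fun m => (h.prime.mem_or_mem m).elim n ht) ?_).2
      (p.sub_mem (p.mul_mem_right _ hu) (p.mul_mem_left _ hv)), rfl⟩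
  push_cast
  rw [e, map_div₀, eq_add_of_sub_eq' eu, eq_add_of_sub_eq' ev]
  field_simp
  ring

theorem idx (h : Lz S T p q) (e : H ≤ G) (hG : Stab G S) (hH : Stab H T)
    (i : ∀ σ ∈ G, Inr S p σ → σ ∈ H) (k : Idx J H A T q) : Idx J G A S p := by
  obtain ⟨U, hU, l⟩ := k.idx
  exact ⟨k.le.trans e, fun σ hσ => h.inr_down (hG σ (e (k.le hσ))) (k.inr σ hσ), U, hU,
    fun σ hσ m => l σ (i σ hσ m) (h.inr_up (hH σ (i σ hσ m)) m)⟩

end Lz

theorem Inr.mono {p' : Ideal S} (e : p' ≤ p) {σ : F ≃ₐ[ℂ] F} (h : Inr S p' σ) : Inr S p σ :=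
  fun a => let ⟨b, hb, k⟩ := h a; ⟨b, e hb, k⟩

end Vale.Agent.P283R.Uc
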