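import Mathlib

/-!
# P283R: the Jacobian criterion with dual derivations
-/

set_option linter.all false

open Set

namespace Vale.Agent.P283R.Uc

variable {k P A ι : Type} [CommRing k] [CommRing P] [Algebra k P] [CommRing A] [Algebra k A]
  [Fintype ι] [DecidableEq ι]

/-- the quotient of a smooth algebra by functions with dual derivations is smooth -/
theorem smq [Algebra.FormallySmooth k P] (f : P →ₐ[k] A) (hf : Function.Surjective f) (v : ι → P)
    (hv : RingHom.ker f = Ideal.span (range v)) (D : ι → Derivation k P P)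
    (h : ∀ i j, f (D j (v i)) = if i = j then 1 else 0) : Algebra.FormallySmooth k A := by
  set I := RingHom.ker f.toRingHom with hI
  have hv' : I = Ideal.span (range v) := hv
  have m : ∀ i, v i ∈ I := fun i => hv' ▸ Ideal.subset_span ⟨i, rfl⟩
  let δ : Derivation k P P := ∑ j, v j • D j
  have hδ : ∀ a, δ a = ∑ j, v j * D j a := fun a => by
    have := congrFun (map_sum Derivation.coeFnAddMonoidHom (fun j => v j • D j) Finset.univ) a
    rw [Finset.sum_apply] at this
    exact this
  have d : ∀ a, δ a ∈ I := fun a => hδ a ▸ I.sum_mem fun j _ => I.mul_mem_right _ (m j)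
  let g : P →ₐ[k] P ⧸ I ^ 2 :=
    { toFun := fun a => Ideal.Quotient.mk _ (a - δ a)
      map_one' := by rw [δ.map_one_eq_zero, sub_zero, map_one]
      map_mul' := fun a b => by
        rw [← map_mul, Ideal.Quotient.eq, δ.leibniz, smul_eq_mul, smul_eq_mul, pow_two]
        rw [show a * b - (a * δ b + b * δ a) - (a - δ a) * (b - δ b) = -(δ a * δ b) by ring]
        exact neg_mem (Ideal.mul_mem_mul (d a) (d b))
      map_zero' := by rw [map_zero, sub_zero, map_zero]
      map_add' := fun a b => by rw [← map_add, map_add δ, add_sub_add_comm]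
      commutes' := fun c => by rw [δ.map_algebraMap, sub_zero]; rfl }
  have z : ∀ a ∈ I, g a = 0 := fun a ha => by
    rw [hv'] at ha
    refine Submodule.span_induction (p := fun a _ => g a = 0) ?_ (map_zero g)
      (fun a b _ _ x y => by rw [map_add, x, y, add_zero])
      (fun a b _ x => by rw [smul_eq_mul, map_mul, x, mul_zero]) ha
    rintro _ ⟨i, rfl⟩
    refine Ideal.Quotient.eq_zero_iff_mem.2 ?_
    have e : v i - δ (v i) = ∑ j, v j * ((if i = j then 1 else 0) - D j (v i)) := by
      simp only [hδ, mul_sub, Finset.sum_sub_distrib, mul_ite, mul_one, mul_zero,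
        Finset.sum_ite_eq, Finset.mem_univ, if_true]
    rw [e, pow_two]
    refine Ideal.sum_mem _ fun j _ => Ideal.mul_mem_mul (m j) ?_
    change f _ = 0
    rw [map_sub, h, apply_ite f, map_one, map_zero, sub_self]
  let e := Ideal.quotientKerAlgEquivOfSurjective hf
  refine .of_split f ((Ideal.Quotient.liftₐ I g z).comp e.symm.toAlgHom) (AlgHom.ext fun a => ?_)
  obtain ⟨a, rfl⟩ := hf a
  have : e.symm (f a) = Ideal.Quotient.mk _ a := e.symm_apply_eq.2 rfl
  change f.kerSquareLift (Ideal.Quotient.liftₐ I g z (e.symm (f a))) = f a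
  rw [this]
  change f (a - δ a) = f a
  rw [map_sub, show f (δ a) = 0 from d a, sub_zero]

end Vale.Agent.P283R.Uc
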